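import Vale.Agent.P244I69.Main
import Vale.Agent.P244Z.Final

/-!
P244: the scalar-curvature extension conjecture fails, for Mathlib's Riemannian metrics, the
Levi-Civita connection and its curvature tensor.
-/

namespace Vale.Agent.Results.P244.AIntrinsic

open Vale.Agent.P244I

theorem result :
    (∀ (E : Type) [NormedAddCommGroup E] [NormedSpace ℝ E] [FiniteDimensional ℝ E]
      (M : Type) [TopologicalSpace M] [T2Space M] [ChartedSpace E M] [Smooth E M] (g : Met E M),
      (∃! R, IsRiem g R) ∧ (∀ D R, IsLeviCivita g D → IsRiem g R → IsCurv D R) ∧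
        ∃! S, IsScal g S) ∧
    (¬ ∀ n : ℕ, 4 ≤ n → ∀ (M : Type) [TopologicalSpace M] [T2Space M] [CompactSpace M]
      [ChartedSpace (Euc n) M] [Smooth (Euc n) M], Extension (Euc n) M) ∧
    ∀ n : ℕ, 10003 ≤ n → ∃ (M : Type) (_ : TopologicalSpace M) (_ : T2Space M)
      (_ : CompactSpace M) (_ : ConnectedSpace M) (_ : ChartedSpace (Euc n) M)
      (_ : Smooth (Euc n) M), ¬ Extension (Euc n) M := by
  refine ⟨fun E _ _ _ M _ _ _ _ g => ⟨exu_riem g, fun _ _ hD hR => hR.curv hD, exu_scal g⟩,
    fun h => ?_, fun n hn => counter (P244Z.Q.counterexample_all hn)⟩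
  obtain ⟨M, _, _, _, _, _, _, hM⟩ := counter (P244Z.Q.counterexample_all (le_refl 10003))
  exact hM (h 10003 (by norm_num) M)

end Vale.Agent.Results.P244.AIntrinsic
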